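import Vale.Agent.P354IF.Defs

/-!
The passage to a transverse frame, on numbers.
-/

open Finset

noncomputable section

namespace Vale.Agent.P354LR

open Vale.Agent.P354IF
open Vale.Agent.P354FA (Lt)
open Vale.Agent.P354FX (ev ct rm Ln Ll ev_add)
open ComplexConjugate

theorem ev_near {L : Lt → Lt → ℂ} {e : ℝ} (e0 : 0 ≤ e) (e1 : e ≤ 1)
    (hL : ∀ x y, ‖L x y - if x = y then 1 else 0‖ ≤ e) (w : List Lt) :
    ∀ (T : List Lt → ℂ) (B : ℝ), (∀ w', List.length w' = w.length → ‖T w'‖ ≤ B) →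
      ‖ev (w.map L) T - T w‖ ≤ 12 ^ w.length * e * B := by
  induction w with
  | nil => exact fun T B h => by simpa [ev] using mul_nonneg e0 ((norm_nonneg _).trans (h [] rfl))
  | cons x w ih =>
    intro T B h
    have B0 : 0 ≤ B := (norm_nonneg _).trans (h _ rfl)
    have k : ∀ I, List.length I = w.length → ‖ct (L x) T I - T (x :: I)‖ ≤ 4 * (e * B) := by
      intro I hI
      have e2 : ct (L x) T I - T (x :: I) = ∑ y, (L x y - if x = y then 1 else 0) * T (y :: I) := by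
        simp [ct, sub_mul, sum_sub_distrib]
      rw [e2]
      refine (norm_sum_le_of_le _ (n := fun _ => e * B) fun y _ => ?_).trans (by simp)
      rw [norm_mul]
      exact mul_le_mul (hL x y) (h _ (by simp [hI])) (norm_nonneg _) e0
    have k1 := ih (ct (L x) T) (8 * B) fun I hI => by
      have := norm_add_le (ct (L x) T I - T (x :: I)) (T (x :: I))
      rw [sub_add_cancel] at this
      nlinarith [k I hI, h (x :: I) (by simp [hI]), mul_le_of_le_one_left B0 e1]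
    have k2 := norm_sub_le_norm_sub_add_norm_sub (ev (w.map L) (ct (L x) T)) (ct (L x) T w)
      (T (x :: w))
    have k3 : (1 : ℝ) ≤ 12 ^ w.length := one_le_pow₀ (by norm_num)
    simp only [List.map_cons, ev, List.length_cons, pow_succ]
    nlinarith [k w rfl, mul_le_mul_of_nonneg_right k3 (mul_nonneg e0 B0)]

/-- The action of a pair of matrices. -/
def op (M : ℕ → ℕ → ℂ) (L : Lt → Lt → ℂ) (g : Tb) : Tb := fun w k =>
  ∑ j ∈ range 5, M k j * ev (w.map L) fun w' => g w' j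

theorem op_add (M L) (g h : Tb) : op M L (g + h) = op M L g + op M L h := by
  funext w k
  simp only [op, Pi.add_apply, ← sum_add_distrib, ← mul_add, ← ev_add]
  rfl

theorem rn_add (a : ℂ) (g h : Tb) : rn a (g + h) = rn a g + rn a h := op_add (rm a) _ g h

theorem rl_add (a : ℂ) (g h : Tb) : rl a (g + h) = rl a g + rl a h :=
  op_add (fun k j => rm a (4 - k) (4 - j)) _ g h

/-- A bound for the words of length s. -/
def Bd (s : ℕ) (g : Tb) (B : ℝ) : Prop := ∀ w k, List.length w = s → k ≤ 4 → ‖g w k‖ ≤ B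

/-- The matrices are near the identity. -/
structure Nr (M : ℕ → ℕ → ℂ) (L : Lt → Lt → ℂ) (e : ℝ) : Prop where
  e0 : 0 ≤ e
  e1 : e ≤ 1
  hM : ∀ k j, k ≤ 4 → j ≤ 4 → ‖M k j - if k = j then 1 else 0‖ ≤ e
  hL : ∀ x y, ‖L x y - if x = y then 1 else 0‖ ≤ e

theorem Nr.bd {M L e s g B} (h : Nr M L e) (b : Bd s g B) :
    Bd s (op M L g - g) (11 * 12 ^ s * e * B) := by
  rintro w k rfl hk
  have B0 : 0 ≤ B := (norm_nonneg _).trans (b w k rfl hk)
  have k1 : ∀ j, j ≤ 4 → ‖(ev (w.map L) fun w' => g w' j) - g w j‖ ≤ 12 ^ w.length * e * B :=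
    fun j hj => ev_near h.e0 h.e1 h.hL w _ B fun w' e => b w' j e hj
  have k3 : (1 : ℝ) ≤ 12 ^ w.length := one_le_pow₀ (by norm_num)
  have k4 := mul_le_mul_of_nonneg_right k3 B0
  have e2 : (op M L g - g) w k = ∑ j ∈ range 5, (M k j - if k = j then 1 else 0) *
      (ev (w.map L) fun w' => g w' j) + ((ev (w.map L) fun w' => g w' k) - g w k) := by
    simp [op, sub_mul, sum_sub_distrib, Nat.lt_succ_of_le hk]
  rw [e2]
  refine (norm_add_le_of_le (norm_sum_le_of_le _ (n := fun _ => e * (2 * (12 ^ w.length * B)))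
    fun j hj => ?_) (k1 k hk)).trans (le_of_eq (by simp; ring))
  have hj := Nat.le_of_lt_succ (mem_range.1 hj)
  rw [norm_mul]
  refine mul_le_mul (h.hM k j hk hj) ?_ (norm_nonneg _) h.e0
  have := norm_add_le ((ev (w.map L) fun w' => g w' j) - g w j) (g w j)
  rw [sub_add_cancel] at this
  nlinarith [k1 j hj, b w j rfl hj, mul_le_of_le_one_left (B0.trans (by simpa using k4)) h.e1]

theorem Nr.two {M L M' L' e e' s g B} (h : Nr M L e) (h' : Nr M' L' e') (b : Bd s g B) :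
    Bd s (op M' L' (op M L g) - g) (11 * 12 ^ s * (1 + 11 * 12 ^ s) * (e + e') * B) := by
  have b1 := h.bd b
  have b2 : Bd s (op M L g) ((1 + 11 * 12 ^ s) * B) := fun w k hw hk => by
    have B0 : 0 ≤ B := (norm_nonneg _).trans (b w k hw hk)
    have := norm_add_le ((op M L g - g) w k) (g w k)
    rw [Pi.sub_apply, Pi.sub_apply, sub_add_cancel] at this
    have k1 := b1 w k hw hk
    rw [Pi.sub_apply, Pi.sub_apply] at k1
    nlinarith [b w k hw hk, mul_le_of_le_one_left (by positivity : 0 ≤ 11 * 12 ^ s * B) h.e1]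
  intro w k hw hk
  have B0 : 0 ≤ B := (norm_nonneg _).trans (b w k hw hk)
  refine (norm_sub_le_norm_sub_add_norm_sub _ (op M L g w k) _).trans
    ((add_le_add (h'.bd b2 w k hw hk) (b1 w k hw hk)).trans ?_)
  have := h.e0
  nlinarith [(by positivity : 0 ≤ 11 * 12 ^ s * (11 * 12 ^ s) * e * B)]

theorem rm_nr {a : ℂ} (ha : ‖a‖ ≤ 1) (k j : ℕ) (hk : k ≤ 4) (hj : j ≤ 4) :
    ‖rm a k j - if k = j then 1 else 0‖ ≤ 6 * ‖a‖ := by
  have a0 := norm_nonneg a
  have p : ∀ n, ‖a‖ ^ (n + 1) ≤ ‖a‖ := fun n => pow_le_of_le_one a0 ha n.succ_ne_zero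
  have p1 := p 1
  have p2 := p 2
  have p3 := p 3
  interval_cases k <;> interval_cases j <;> simp [rm, Nat.choose] <;> norm_num at * <;> linarith [norm_nonneg a]

theorem nr_n {a : ℂ} (ha : 6 * ‖a‖ ≤ 1) : Nr (rm a) (Ln a (conj a)) (6 * ‖a‖) := by
  have a0 := norm_nonneg a
  refine ⟨by positivity, ha, rm_nr (by linarith), ?_⟩
  rintro ⟨_ | _, _ | _⟩ ⟨_ | _, _ | _⟩ <;> simp [Ln] <;> nlinarith

theorem nr_l {a : ℂ} (ha : 6 * ‖a‖ ≤ 1) :
    Nr (fun k j => rm a (4 - k) (4 - j)) (Ll a (conj a)) (6 * ‖a‖) := by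
  have a0 := norm_nonneg a
  refine ⟨by positivity, ha, fun k j hk hj => ?_, ?_⟩
  · have := rm_nr (a := a) (by linarith) (4 - k) (4 - j) (by omega) (by omega)
    by_cases e : k = j
    · rwa [if_pos (by rw [e]), ← if_pos e (t := (1 : ℂ)) (e := 0)] at this
    · rwa [if_neg (by omega), ← if_neg e (t := (1 : ℂ)) (e := 0)] at this
  · rintro ⟨_ | _, _ | _⟩ ⟨_ | _, _ | _⟩ <;> simp [Ll] <;> nlinarith

theorem bd_nm (s : ℕ) (g : Tb) : Bd s g (nm s g) := by
  rintro w k rfl hk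
  refine le_trans ?_ (single_le_sum (f := fun j : Fin w.length → Lt =>
    ∑ k ∈ range 5, ‖g (List.ofFn j) k‖) (fun _ _ => by positivity) (mem_univ w.get))
  rw [List.ofFn_get]
  exact single_le_sum (f := fun k => ‖g w k‖) (fun _ _ => norm_nonneg _)
    (mem_range.2 (Nat.lt_succ_of_le hk))

theorem absorb {a u κ z : ℂ} {t D : ℝ} (t0 : 0 ≤ t) (h : z + (3 + u) * a * κ = 0) (hu : ‖u‖ ≤ 2)
    (hκ : 1 ≤ t * ‖κ‖) (hz : ‖z‖ ≤ D) : ‖a‖ ≤ t * D := by
  have e : ‖3 + u‖ * ‖a‖ * ‖κ‖ = ‖z‖ := by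
    rw [← norm_mul, ← norm_mul, eq_neg_of_add_eq_zero_left h, norm_neg]
  have h1 : 1 ≤ ‖3 + u‖ := by
    have := norm_sub_le (3 + u) u
    norm_num at this
    linarith
  calc ‖a‖ ≤ ‖3 + u‖ * ‖a‖ * (t * ‖κ‖) := (le_mul_of_one_le_left (norm_nonneg _) h1).trans
        (le_mul_of_one_le_right (by positivity) hκ)
    _ = t * ‖z‖ := by rw [← e]; ring
    _ ≤ t * D := mul_le_mul_of_nonneg_left hz t0

theorem lor : LOR := by
  intro n K
  obtain ⟨c, hc⟩ : ∃ c : ℝ, c = 11 * 12 ^ n * (1 + 11 * 12 ^ n) := ⟨_, rfl⟩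
  refine ⟨12 * c * (1 + K * (K * 265)), 1 / 6, by norm_num, ?_⟩
  intro la μ a b g κ l1 m0 ha hb h1 h3 k0 k1 k2 _ w k hw hk
  have na := nr_n (a := a) (by linarith)
  have nb := nr_l (a := b) (by linarith)
  have a0 := norm_nonneg a
  have b0 := norm_nonneg b
  have l0 : 0 < la := by linarith
  have K0 : 0 ≤ K := le_trans (by positivity) (k2 [] 0 (Nat.zero_le _))
  have sp : ∀ w k, rl b (rn a g) w k = rl b (rn a (g - κ)) w k + rl b (rn a κ) w k := fun w k => by
    conv_lhs => rw [← sub_add_cancel g κ]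
    rw [rn_add, rl_add]
    rfl
  have D0 : 0 ≤ nm 0 (g - κ) := (norm_nonneg _).trans (bd_nm 0 _ [] 0 rfl (by norm_num))
  have z : ∀ k, k ≤ 4 → ‖rl b (rn a (g - κ)) [] k‖ ≤ 265 * nm 0 (g - κ) := fun k hk => by
    have e1 := na.two nb (bd_nm 0 (g - κ)) [] k rfl hk
    have e2 := norm_add_le (rl b (rn a (g - κ)) [] k - (g - κ) [] k) ((g - κ) [] k)
    rw [sub_add_cancel] at e2
    change ‖rl b (rn a (g - κ)) [] k - (g - κ) [] k‖ ≤ _ at e1
    nlinarith [bd_nm 0 (g - κ) [] k rfl hk, na.e1, nb.e1]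
  have ab : ‖a * b‖ ≤ 1 / 36 := by rw [norm_mul]; nlinarith
  have ea : ‖a‖ ≤ K * la ^ 3 * (265 * nm 0 (g - κ)) :=
    absorb (u := 6 * (a * b)) (by positivity) (by
      rw [← h1, sp]
      simp [rl, rn, ev, rm, sum_range_succ, k0, Nat.choose]
      ring) (by rw [norm_mul]; norm_num at ab ⊢; linarith) k1 (z 1 (by norm_num))
  have eb : ‖b‖ ≤ K * la ^ 3 * (265 * nm 0 (g - κ)) :=
    absorb (u := 9 * (a * b) + 6 * (a * b) ^ 2) (by positivity) (by
      rw [← h3, sp]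
      simp [rl, rn, ev, rm, sum_range_succ, k0, Nat.choose]
      ring) ((norm_add_le _ _).trans (by
        rw [norm_mul, norm_mul 6, norm_pow]
        norm_num at ab ⊢
        nlinarith [mul_nonneg a0 b0])) k1 (z 3 (by norm_num))
  have e1 := na.two nb (bd_nm w.length (g - κ)) w k rfl hk
  have e2 := na.two nb (s := w.length) (g := κ) (B := K / la ^ (3 + w.length))
    (fun w' k e _ => by rw [le_div_iff₀ (by positivity), ← e]; exact k2 w' k (e ▸ hw)) w k rfl hk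
  change ‖rl b (rn a (g - κ)) w k - (g - κ) w k‖ ≤ _ at e1
  change ‖rl b (rn a κ) w k - κ w k‖ ≤ _ at e2
  have e3 : rl b (rn a g) w k - g w k =
      (rl b (rn a (g - κ)) w k - (g - κ) w k) + (rl b (rn a κ) w k - κ w k) := by
    rw [sp, Pi.sub_apply, Pi.sub_apply]; ring
  have c1 : (11 * 12 ^ w.length * (1 + 11 * 12 ^ w.length) : ℝ) ≤ c := by
    rw [hc]; gcongr <;> norm_num
  have N0 : 0 ≤ nm w.length (g - κ) := (norm_nonneg _).trans (bd_nm _ _ w k rfl hk)
  have c0 : 0 ≤ c := by rw [hc]; positivity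
  have e4 := e1.trans (mul_le_mul_of_nonneg_right (mul_le_mul c1
    (by linarith : 6 * ‖a‖ + 6 * ‖b‖ ≤ 12 * μ) (by positivity) c0) N0)
  have e5 := e2.trans (mul_le_mul_of_nonneg_right (mul_le_mul c1
    (by linarith : 6 * ‖a‖ + 6 * ‖b‖ ≤ 12 * (K * la ^ 3 * (265 * nm 0 (g - κ)))) (by positivity) c0)
    (by positivity))
  have e6 : c * (12 * (K * la ^ 3 * (265 * nm 0 (g - κ)))) * (K / la ^ (3 + w.length)) =
      12 * c * (K * (K * 265)) * (nm 0 (g - κ) / la ^ w.length) := by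
    rw [pow_add]; field_simp
  have m1 : 0 ≤ μ * nm w.length (g - κ) := mul_nonneg (a0.trans ha) N0
  have m2 : 0 ≤ nm 0 (g - κ) / la ^ w.length := by positivity
  rw [e3]
  refine (norm_add_le_of_le e4 (e5.trans e6.le)).trans ?_
  nlinarith [mul_nonneg c0 m2, mul_nonneg (mul_nonneg c0 (mul_self_nonneg K)) m1]

end Vale.Agent.P354LR
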