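import Vale.Agent.P354YI.Defs2
import Vale.Agent.P354DT.Gen
import Vale.Agent.P354LC.Agr2

/-!
The induced data under maps which preserve the slice.
-/

set_option maxSynthPendingDepth 3

open scoped ContDiff
open Set Filter Topology

noncomputable section

namespace Vale.Agent.P354LR

open Vale.Agent.P354n (R4)
open Vale.Agent.P354I (X Dat ee pd rp)
open Vale.Agent.P354R (Met Pull chr)
open Vale.Agent.P354RC (k2 p_at at_df at_fd surj_of_inj C1_ap)
open Vale.Agent.P354XD (tb rp_tb)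
open Vale.Agent.P354XE (Tw pt xs rd eT pb kap kr)
open Vale.Agent.P354XV (In0)
open Vale.Agent.P354YR
open Vale.Agent.P354DT (ptL split_eT fix_fd in0_pull)

variable {f : R4 → R4} {ψ : X → X} {y : X}

theorem pt_sum (u : X) : pt 0 u = ∑ k, u k • pt 0 (ee k) := by
  simp [pt, ee, Fin.sum_univ_three]

/-- The determinant of a linear map which fixes the vectors tangent to the slice. -/
theorem det_fix {L : R4 →L[ℝ] R4} (k : ∀ u : X, L (pt 0 u) = pt 0 u) :
    LinearMap.det (L : R4 →ₗ[ℝ] R4) = (L eT).1 := by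
  have e : (L : R4 →ₗ[ℝ] R4) = LinearMap.transvection (LinearMap.fst ℝ ℝ _) (L eT - eT) :=
    LinearMap.ext fun v => by
      rw [LinearMap.transvection.apply, LinearMap.fst_apply, smul_sub, ContinuousLinearMap.coe_coe]
      conv_lhs => rw [split_eT v, map_add, map_smul, k]
      rw [eq_sub_of_add_eq' (split_eT v).symm]
      abel
  rw [e, LinearMap.transvection.det]
  simp [eT]

theorem sl_fd (s : ContDiffAt ℝ ∞ f (pt 0 y)) (e : ∀ᶠ z in 𝓝 y, f (pt 0 z) = pt 0 (ψ z)) (u : X) :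
    fderiv ℝ f (pt 0 y) (pt 0 u) = pt 0 (fderiv ℝ ψ y u) := by
  have a : HasFDerivAt (fun z => f (ptL z)) ((fderiv ℝ f (pt 0 y)).comp ptL) y :=
    (at_df s).hasFDerivAt.comp y ptL.hasFDerivAt
  have d : DifferentiableAt ℝ ψ y :=
    ((xs_cd.differentiable (by simp) _).comp y a.differentiableAt).congr_of_eventuallyEq
      (e.mono fun z hz => (xs_pt 0 (ψ z)).symm.trans (congrArg xs hz.symm))
  exact congrArg (· u)
    (a.unique ((ptL.hasFDerivAt.comp y d.hasFDerivAt).congr_of_eventuallyEq e))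

/-- **INP.** -/
theorem inp : P354YI.INP := by
  intro f g' D' g D d ψ y P hy e o ⟨n, n1, n2, n3⟩
  obtain ⟨u, rfl⟩ := surj_of_inj (P.inj _ hy) n
  have s := p_at P hy
  have k := sl_fd s e
  have e0 := e.self_of_nhds
  have m : pt 0 (ψ y) ∈ D := e0 ▸ P.maps hy
  have r := rp_tb P.isOpen P.met
  simp only [r.eq _ m, r.chr m, C1_ap] at n3
  have z0 : ∀ w : X, tb g (pt 0 (ψ y)) (pt 0 w) (fderiv ℝ f (pt 0 y) u) = 0 := fun w => by
    rw [pt_sum w]
    simp only [map_sum, map_smul, sum_apply, smul_apply, fun i => (n3 i 0).1, smul_zero,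
      Finset.sum_const_zero]
  refine ⟨u, by rw [P.eq _ hy, e0, n1], ?_, fun i j => ⟨?_, ?_, ?_⟩⟩
  · rw [split_eT u, map_add, map_smul, k] at n2
    have : 0 < u.1 * (fderiv ℝ f (pt 0 y) eT).1 := by simpa [pt] using n2
    exact pos_of_mul_pos_left this o.le
  · rw [P.eq _ hy, e0, k, r.eq _ m, z0]
  · rw [P.eq _ hy, e0, k, k, r.eq _ m, pt_sum (fderiv ℝ ψ y (ee i)),
      pt_sum (fderiv ℝ ψ y (ee j))]
    simp only [map_add, map_smul, add_apply, smul_apply, fun i j => (n3 i j).2.1, smul_eq_mul,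
      Dat.pull, Matrix.of_apply, pd, Fin.sum_univ_three]
    ring
  · have z : (fderiv ℝ (fun z => fderiv ℝ f z (pt 0 (ee j))) (pt 0 y) (pt 0 (ee i))).1 = 0 := by
      have s2 : ContDiffAt ℝ ∞ (fun z => fderiv ℝ f z (pt 0 (ee j))) (pt 0 y) :=
        (at_fd s).clm_apply contDiffAt_const
      have a : HasFDerivAt (fun z => fderiv ℝ f (ptL z) (pt 0 (ee j)))
          ((fderiv ℝ (fun z => fderiv ℝ f z (pt 0 (ee j))) (pt 0 y)).comp ptL) y :=
        (at_df s2).hasFDerivAt.comp y ptL.hasFDerivAt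
      have e2 : (fun z => (fderiv ℝ f (ptL z) (pt 0 (ee j))).1) =ᶠ[𝓝 y] fun _ => 0 := by
        filter_upwards [e.eventually_nhds, ptL.continuous.continuousAt.eventually
          (P.open'.mem_nhds hy)] with z h1 h2 using congrArg Prod.fst (sl_fd (p_at P h2) h1 _)
      exact congrArg (· (ee i)) (a.fst.unique ((hasFDerivAt_const _ y).congr_of_eventuallyEq e2))
    rw [k2.2.2.2.2 _ _ _ _ _ P _ hy, e0, split_eT (fderiv ℝ (fun z => fderiv ℝ f z _) _ _), z,
      zero_smul, zero_add, r.eq _ m, z0, add_zero, k, k, r.chr m, C1_ap,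
      pt_sum (fderiv ℝ ψ y (ee i)), pt_sum (fderiv ℝ ψ y (ee j))]
    simp only [map_add, map_smul, add_apply, smul_apply, ← fun i j => (n3 i j).2.2, smul_eq_mul,
      Dat.pull, Matrix.of_apply, pd, Fin.sum_univ_three]
    ring

/-- **INB.** -/
theorem inb : P354YI.INB := by
  intro M a h b g' D' g D d y P hy hD hd hb I
  have C := isCh h true
  have sg : ∀ z, pt 0 z ∈ DE M a true → kin M a (pt 0 z) ∈ P354YI.Sig0 M a := fun z hz => by
    refine ⟨?_, P354LC.kin_sl h hz rfl⟩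
    have v0 : 0 < kV M a (pt 0 z) := hz.2
    have k : kr M a (pt 0 z) - rp M a = kV M a (pt 0 z) ^ 2 := by
      rw [kr, kV, show (pt 0 z).1 = 0 from rfl]; ring
    rw [kin_rd h hz.1]
    exact sub_pos.1 (k ▸ pow_pos v0 2)
  have ok : ∀ {V : Set R4}, IsOpen V → IsOpen (DE M a true ∩ kin M a ⁻¹' V) := fun o =>
    ContinuousOn.isOpen_inter_preimage
      (fun _ hz => (s_kin hz).continuousAt.continuousWithinAt) (open_DE true) o
  have o1 : IsOpen (D' ∩ b ⁻¹' DI M a) :=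
    P.smooth.continuousOn.isOpen_inter_preimage P.open' open_DI
  have Q : Pull (kin M a) (pb (kin M a) g) (DE M a true ∩ kin M a ⁻¹' D) g D :=
    ⟨ok P.isOpen, P.isOpen, P.met, fun _ hz => (s_kin hz.1).contDiffWithinAt, fun _ hz => hz.2,
      fun _ hz => C.back.inj _ hz.1, fun _ _ _ _ => rfl⟩
  have Q' : Pull (kin M a) (pb (kin M a) g') (DE M a true ∩ kin M a ⁻¹' (D' ∩ b ⁻¹' DI M a)) g' D' :=
    ⟨ok o1, P.open', k2.1 _ _ _ _ _ P, fun _ hz => (s_kin hz.1).contDiffWithinAt,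
      fun _ hz => hz.2.1, fun _ hz => C.back.inj _ hz.1, fun _ _ _ _ => rfl⟩
  have R := pull_inv Q (P.isOpen.inter open_DI) inter_subset_left (fun _ hz => s_kap h hz.2)
    (fun p hz => ⟨kap_mem h hz.2, show kin M a _ ∈ D from (kin_kap h hz.2).symm ▸ hz.1⟩)
    fun _ hz => kin_kap h hz.2
  have S := pull_comp R (pull_mono (pull_comp P Q') Q'.open' Subset.rfl R.open' inter_subset_left
    fun _ hz => ⟨P.maps hz.2.1, hz.2.2⟩)
  have b0 := hb _ hD (sg y hy)
  have i0 := kin_mem h hy.1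
  have my : pt 0 y ∈ DE M a true ∩ kin M a ⁻¹' (D' ∩ b ⁻¹' DI M a) :=
    ⟨hy, hD, show b _ ∈ _ from b0.symm ▸ i0⟩
  have e : ∀ᶠ z in 𝓝 y, (kap M a ∘ b ∘ kin M a) (pt 0 z) = pt 0 z := by
    filter_upwards [ptL.continuous.continuousAt.eventually (Q'.open'.mem_nhds my)] with z hz
    exact (congrArg (kap M a) (hb _ hz.2.1 (sg z hz.1))).trans (kap_kin h hz.1)
  refine in0_pull S my e ?_ I
  have d1 := at_df (s_kin hy)
  have d2 := at_df (p_at P hD)
  have d3 := at_df (s_kap h i0)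
  have c : fderiv ℝ (kap M a ∘ kin M a) (pt 0 y) = .id ℝ R4 := by
    rw [← fderiv_id]
    exact EventuallyEq.fderiv_eq
      (mem_of_superset ((open_DE true).mem_nhds hy) fun z hz => kap_kin h hz)
  rw [fderiv_comp _ d3 d1] at c
  have c' := congrArg (fun L : R4 →L[ℝ] R4 => LinearMap.det (L : R4 →ₗ[ℝ] R4)) c
  rw [← det_fix (fix_fd (p_at S my) e), fderiv_comp (g := kap M a) (f := b ∘ kin M a) _
    (by rw [Function.comp_apply, b0]; exact d3) (d2.comp _ d1), fderiv_comp _ d2 d1,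
    Function.comp_apply, b0]
  have dc : ∀ A B : R4 →L[ℝ] R4, LinearMap.det (A.comp B : R4 →ₗ[ℝ] R4) =
      LinearMap.det (A : R4 →ₗ[ℝ] R4) * LinearMap.det (B : R4 →ₗ[ℝ] R4) := fun A B =>
    LinearMap.det_comp (A : R4 →ₗ[ℝ] R4) B
  simp only [dc, ContinuousLinearMap.coe_id, LinearMap.det_id] at c' ⊢
  rwa [mul_left_comm, c', mul_one]

end Vale.Agent.P354LR
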